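/-
helper71 — row 299 (S0453), work package T2Om (insurance copy): the inequality (T2-Om)

  `∑_{U pair} ∑_{G ∈ Ω} f G * Rop d U f G ≤ (1/2) * switchEnergy d f`

from (i) the abstract Johnson–Poincaré inequality (helper80's `johnson_poincare`, taken here as
the hypothesis `JohnsonPoincare α`) and (ii) the Johnson structure of the pair classes
(helper65's pair-class bijection, taken here as the hypothesis `JohnsonStructure α (cls d {a,b} G)`),
plus helper65's `switch_diagonals`.
-/
import Crest.Agent.Helper65.Switch.Classes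

set_option autoImplicit false

namespace Crest.Agent.Helper71.SW

open Finset Crest.SwitchChain Crest.Agent.Helper65.Switch

variable {n : ℕ}

/-- The abstract Johnson–Poincaré inequality on the `s`-subsets of `D` with constant `1/4` in
ordered-edge form (the shape of helper80's `johnson_poincare`). -/
def JohnsonPoincare (α : Type*) [DecidableEq α] : Prop :=
  ∀ (D : Finset α) (s : ℕ) (φ : Finset α → ℝ),
    ((D.powersetCard s).card : ℝ) * ∑ X ∈ D.powersetCard s, φ X ^ 2 -
        (∑ X ∈ D.powersetCard s, φ X) ^ 2 ≤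
      (1 / 4) * (D.powersetCard s).card *
        ∑ X ∈ D.powersetCard s, ∑ c ∈ X, ∑ w ∈ D \ X, (φ X - φ (insert w (X.erase c))) ^ 2

/-- Johnson structure of a finite set `K` of graphs: a bijection with the `s`-subsets of a
finite set `D` under which every Johnson exchange `A ↦ A - u + w` is a switch. -/
def JohnsonStructure (α : Type*) [DecidableEq α] (K : Finset (Finset (Edge n))) : Prop :=
  ∃ (D : Finset α) (s : ℕ) (toSet : Finset (Edge n) → Finset α)
    (ofSet : Finset α → Finset (Edge n)),
    (∀ G ∈ K, toSet G ∈ D.powersetCard s ∧ ofSet (toSet G) = G) ∧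
    (∀ A ∈ D.powersetCard s, ofSet A ∈ K ∧ toSet (ofSet A) = A) ∧
    (∀ A ∈ D.powersetCard s, ∀ u ∈ A, ∀ w ∈ D \ A,
      IsSwitch (ofSet A) (ofSet (insert w (A.erase u))))

/-- An exchange of an `s`-subset of `D` is again an `s`-subset of `D`. -/
lemma exchange_mem_powersetCard {α : Type*} [DecidableEq α] {D X : Finset α} {s : ℕ}
    (hX : X ∈ D.powersetCard s) {c w : α} (hc : c ∈ X) (hw : w ∈ D \ X) :
    insert w (X.erase c) ∈ D.powersetCard s := by
  rw [Finset.mem_powersetCard] at hX ⊢
  rw [Finset.mem_sdiff] at hw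
  refine ⟨?_, ?_⟩
  · intro x hx
    rw [Finset.mem_insert] at hx
    rcases hx with rfl | hx
    · exact hw.1
    · exact hX.1 (Finset.mem_of_mem_erase hx)
  · have hw' : w ∉ X.erase c := fun h => hw.2 (Finset.mem_of_mem_erase h)
    rw [Finset.card_insert_of_notMem hw', Finset.card_erase_of_mem hc, hX.2]
    have : 0 < X.card := Finset.card_pos.2 ⟨c, hc⟩
    omega

/-- The exchange map `(c, w) ↦ X - c + w` is injective on `X × (D \ X)`. -/
lemma exchange_injOn {α : Type*} [DecidableEq α] {D X : Finset α} {c w c' w' : α}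
    (hw : w ∈ D \ X) (hc' : c' ∈ X) (hw' : w' ∈ D \ X)
    (h : insert w (X.erase c) = insert w' (X.erase c')) : c = c' ∧ w = w' := by
  rw [Finset.mem_sdiff] at hw hw'
  have hww : w = w' := by
    have h1 : w ∈ insert w' (X.erase c') := h ▸ Finset.mem_insert_self w _
    rw [Finset.mem_insert] at h1
    rcases h1 with h1 | h1
    · exact h1
    · exact absurd (Finset.mem_of_mem_erase h1) hw.2
  refine ⟨?_, hww⟩
  by_contra hcc
  have h2 : c' ∈ insert w (X.erase c) := by
    rw [Finset.mem_insert]
    right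
    exact Finset.mem_erase.2 ⟨fun h => hcc h.symm, hc'⟩
  rw [h, Finset.mem_insert] at h2
  rcases h2 with h2 | h2
  · exact hw'.2 (h2 ▸ hc')
  · exact (Finset.notMem_erase c' X) h2

open Classical in
/-- **Class-level Poincaré inequality**: a set of graphs with a Johnson structure satisfies the
Poincaré inequality with constant `1/4` for the energy of the ordered switch pairs inside it. -/
theorem class_poincare {α : Type*} [DecidableEq α] (hJP : JohnsonPoincare α)
    (K : Finset (Finset (Edge n))) (hK : JohnsonStructure α K) (f : Finset (Edge n) → ℝ) :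
    (K.card : ℝ) * ∑ G ∈ K, f G ^ 2 - (∑ G ∈ K, f G) ^ 2 ≤
      (1 / 4) * K.card *
        ∑ G ∈ K, ∑ G' ∈ K.filter (fun G' => IsSwitch G G'), (f G - f G') ^ 2 := by
  obtain ⟨D, s, toSet, ofSet, h1, h2, h3⟩ := hK
  have hsum : ∀ h : Finset (Edge n) → ℝ,
      ∑ G ∈ K, h G = ∑ A ∈ D.powersetCard s, h (ofSet A) := by
    intro h
    exact Finset.sum_nbij' toSet ofSet (fun G hG => (h1 G hG).1) (fun A hA => (h2 A hA).1)
      (fun G hG => (h1 G hG).2) (fun A hA => (h2 A hA).2)
      (fun G hG => by rw [(h1 G hG).2])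
  have hcard : K.card = (D.powersetCard s).card :=
    Finset.card_nbij' toSet ofSet (fun G hG => (h1 G hG).1) (fun A hA => (h2 A hA).1)
      (fun G hG => (h1 G hG).2) (fun A hA => (h2 A hA).2)
  have hinj : ∀ A ∈ D.powersetCard s, ∀ B ∈ D.powersetCard s, ofSet A = ofSet B → A = B := by
    intro A hA B hB hAB
    rw [← (h2 A hA).2, ← (h2 B hB).2, hAB]
  have key := hJP D s (fun A => f (ofSet A))
  -- bound the Johnson energy at `X` by the switch energy at `ofSet X`
  have hloc : ∀ X ∈ D.powersetCard s,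
      ∑ c ∈ X, ∑ w ∈ D \ X, (f (ofSet X) - f (ofSet (insert w (X.erase c)))) ^ 2 ≤
        ∑ G' ∈ K.filter (fun G' => IsSwitch (ofSet X) G'), (f (ofSet X) - f G') ^ 2 := by
    intro X hX
    rw [← Finset.sum_product' (s := X) (t := D \ X)
      (f := fun c w => (f (ofSet X) - f (ofSet (insert w (X.erase c)))) ^ 2)]
    have himg : ∑ p ∈ X ×ˢ (D \ X), (f (ofSet X) - f (ofSet (insert p.2 (X.erase p.1)))) ^ 2 =
        ∑ G' ∈ (X ×ˢ (D \ X)).image (fun p => ofSet (insert p.2 (X.erase p.1))),
          (f (ofSet X) - f G') ^ 2 := by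
      rw [Finset.sum_image]
      intro p hp q hq hpq
      rw [Finset.mem_coe, Finset.mem_product] at hp hq
      have e := hinj _ (exchange_mem_powersetCard hX hp.1 hp.2) _
        (exchange_mem_powersetCard hX hq.1 hq.2) hpq
      obtain ⟨e1, e2⟩ := exchange_injOn hp.2 hq.1 hq.2 e
      exact Prod.ext e1 e2
    rw [himg]
    refine Finset.sum_le_sum_of_subset_of_nonneg ?_ (fun _ _ _ => sq_nonneg _)
    intro G' hG'
    rw [Finset.mem_image] at hG'
    obtain ⟨p, hp, rfl⟩ := hG'
    rw [Finset.mem_product] at hp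
    rw [Finset.mem_filter]
    exact ⟨(h2 _ (exchange_mem_powersetCard hX hp.1 hp.2)).1, h3 X hX p.1 hp.1 p.2 hp.2⟩
  have hE : ∑ X ∈ D.powersetCard s, ∑ c ∈ X, ∑ w ∈ D \ X,
        (f (ofSet X) - f (ofSet (insert w (X.erase c)))) ^ 2 ≤
      ∑ G ∈ K, ∑ G' ∈ K.filter (fun G' => IsSwitch G G'), (f G - f G') ^ 2 := by
    rw [hsum (fun G => ∑ G' ∈ K.filter (fun G' => IsSwitch G G'), (f G - f G') ^ 2)]
    exact Finset.sum_le_sum hloc
  rw [hsum (fun G => f G ^ 2), hsum f, hcard]
  refine le_trans key ?_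
  have hN : (0 : ℝ) ≤ (1 / 4) * ((D.powersetCard s).card : ℝ) := by positivity
  exact mul_le_mul_of_nonneg_left hE hN

/-- Two graphs with the same key have the same class. -/
lemma cls_congr {d : Fin n → ℕ} {U : Finset (Fin n)} {G G' : Finset (Edge n)}
    (h : offU U G = offU U G') : cls d U G = cls d U G' := by
  ext H
  rw [mem_cls, mem_cls, h]

/-- Averaging over the classes preserves the sum over the realizations. -/
theorem sum_class_avg (d : Fin n → ℕ) (U : Finset (Fin n)) (h : Finset (Edge n) → ℝ) :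
    ∑ G ∈ realizations d, (∑ G' ∈ cls d U G, h G') / ((cls d U G).card : ℝ) =
      ∑ G ∈ realizations d, h G := by
  classical
  have h1 : ∀ G ∈ realizations d, (∑ G' ∈ cls d U G, h G') / ((cls d U G).card : ℝ) =
      ∑ G' ∈ realizations d,
        if G ∈ cls d U G' then h G' / ((cls d U G').card : ℝ) else 0 := by
    intro G hG
    rw [Finset.sum_div]
    have hsub : cls d U G ⊆ realizations d := cls_subset_realizations G
    rw [← Finset.sum_subset hsub]
    · refine Finset.sum_congr rfl fun G' hG' => ?_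
      have hG'' : G ∈ cls d U G' := mem_cls.2 ⟨hG, ((mem_cls.1 hG').2).symm⟩
      rw [if_pos hG'', cls_eq_of_mem hG']
    · intro G' hG' hnot
      rw [if_neg]
      intro hcon
      exact hnot (mem_cls.2 ⟨hG', ((mem_cls.1 hcon).2).symm⟩)
  rw [Finset.sum_congr rfl h1, Finset.sum_comm]
  refine Finset.sum_congr rfl fun G' hG' => ?_
  rw [← Finset.sum_filter]
  have hfil : (realizations d).filter (fun G => G ∈ cls d U G') = cls d U G' := by
    ext G
    rw [Finset.mem_filter]
    exact ⟨fun hh => hh.2, fun hh => ⟨cls_subset_realizations G' hh, hh⟩⟩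
  rw [hfil, Finset.sum_const, nsmul_eq_mul]
  have hpos : (0 : ℝ) < ((cls d U G').card : ℝ) := by
    exact_mod_cast Finset.card_pos.2 ⟨G', mem_cls_self hG'⟩
  field_simp

open Classical in
/-- **Pair-level Poincaré inequality**: for a vertex set `U` all of whose classes carry a Johnson
structure, `⟨f, R_U f⟩` is at most a quarter of the energy of the ordered switch pairs inside
the classes of `U`. -/
theorem pair_poincare {α : Type*} [DecidableEq α] (hJP : JohnsonPoincare α) (d : Fin n → ℕ)
    (U : Finset (Fin n)) (hU : ∀ G ∈ realizations d, JohnsonStructure α (cls d U G))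
    (f : Finset (Edge n) → ℝ) :
    ∑ G ∈ realizations d, f G * Rop d U f G ≤
      (1 / 4) * ∑ G ∈ realizations d,
        ∑ G' ∈ (cls d U G).filter (fun G' => IsSwitch G G'), (f G - f G') ^ 2 := by
  rw [← sum_class_avg d U (fun G => f G * Rop d U f G),
    ← sum_class_avg d U
      (fun G => ∑ G' ∈ (cls d U G).filter (fun G' => IsSwitch G G'), (f G - f G') ^ 2),
    Finset.mul_sum]
  refine Finset.sum_le_sum fun G hG => ?_
  have hpos : (0 : ℝ) < ((cls d U G).card : ℝ) := by
    exact_mod_cast Finset.card_pos.2 ⟨G, mem_cls_self hG⟩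
  have hL : ∑ G' ∈ cls d U G, f G' * Rop d U f G' =
      (((cls d U G).card : ℝ) * ∑ G' ∈ cls d U G, f G' ^ 2 - (∑ G' ∈ cls d U G, f G') ^ 2) /
        ((cls d U G).card : ℝ) := by
    have : ∀ G' ∈ cls d U G, f G' * Rop d U f G' = f G' ^ 2 - f G' * Qavg d U f G := by
      intro G' hG'
      rw [Rop_def, Qavg_eq_of_mem f hG']
      ring
    rw [Finset.sum_congr rfl this, Finset.sum_sub_distrib, ← Finset.sum_mul, Qavg_def]
    field_simp
  have hR : ∑ G' ∈ cls d U G,
        ∑ G'' ∈ (cls d U G').filter (fun G'' => IsSwitch G' G''), (f G' - f G'') ^ 2 =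
      ∑ G' ∈ cls d U G,
        ∑ G'' ∈ (cls d U G).filter (fun G'' => IsSwitch G' G''), (f G' - f G'') ^ 2 := by
    refine Finset.sum_congr rfl fun G' hG' => ?_
    rw [cls_eq_of_mem hG']
  have key := class_poincare hJP (cls d U G) (hU G hG) f
  rw [hL, hR, div_div, ← mul_div_assoc, div_le_div_iff₀ (mul_pos hpos hpos) hpos]
  nlinarith [key, hpos, mul_pos hpos hpos]

open Classical in
/-- **(T2-Om)**: `∑_{U pair} ⟨f, R_U f⟩ ≤ (1/2) · switchEnergy`. -/
theorem T2Om {α : Type*} [DecidableEq α] (hJP : JohnsonPoincare α) (d : Fin n → ℕ)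
    (hB : ∀ a b : Fin n, a ≠ b → ∀ G ∈ realizations d, JohnsonStructure α (cls d {a, b} G))
    (f : Finset (Edge n) → ℝ) :
    ∑ U ∈ (univ : Finset (Fin n)).powersetCard 2, ∑ G ∈ realizations d, f G * Rop d U f G ≤
      (1 / 2) * switchEnergy d f := by
  have step : ∀ U ∈ (univ : Finset (Fin n)).powersetCard 2,
      ∑ G ∈ realizations d, f G * Rop d U f G ≤
        (1 / 4) * ∑ G ∈ realizations d,
          ∑ G' ∈ (realizations d).filter (fun G' => IsSwitch G G'),
            if offU U G' = offU U G then (f G - f G') ^ 2 else 0 := by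
    intro U hU
    obtain ⟨a, b, hab, rfl⟩ := Finset.card_eq_two.1 (Finset.mem_powersetCard.1 hU).2
    refine le_trans (pair_poincare hJP d {a, b} (hB a b hab) f) ?_
    refine mul_le_mul_of_nonneg_left (le_of_eq ?_) (by norm_num)
    refine Finset.sum_congr rfl fun G _ => ?_
    rw [← Finset.sum_filter]
    refine Finset.sum_congr ?_ fun _ _ => rfl
    ext G'
    simp only [Finset.mem_filter, mem_cls]
    tauto
  refine le_trans (Finset.sum_le_sum step) ?_
  rw [← Finset.mul_sum, Finset.sum_comm, switchEnergy_def]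
  have h2 : ∀ G ∈ realizations d,
      ∑ U ∈ (univ : Finset (Fin n)).powersetCard 2,
        ∑ G' ∈ (realizations d).filter (fun G' => IsSwitch G G'),
          (if offU U G' = offU U G then (f G - f G') ^ 2 else 0) ≤
        2 * ∑ G' ∈ (realizations d).filter (fun G' => IsSwitch G G'), (f G - f G') ^ 2 := by
    intro G _
    rw [Finset.sum_comm, Finset.mul_sum]
    refine Finset.sum_le_sum fun G' hG' => ?_
    rw [← Finset.sum_filter, Finset.sum_const, nsmul_eq_mul]
    have hsw : IsSwitch G G' := (Finset.mem_filter.1 hG').2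
    have hc : ((((univ : Finset (Fin n)).powersetCard 2).filter
        (fun U => offU U G' = offU U G)).card : ℝ) ≤ 2 := by
      exact_mod_cast switch_diagonals hsw
    exact mul_le_mul_of_nonneg_right hc (sq_nonneg _)
  have h3 := Finset.sum_le_sum h2
  rw [← Finset.mul_sum] at h3
  linarith

/-- **(T2-Om)**, weak form: `∑_{U pair} ⟨f, R_U f⟩ ≤ switchEnergy`. -/
theorem T2Om_le {α : Type*} [DecidableEq α] (hJP : JohnsonPoincare α) (d : Fin n → ℕ)
    (hB : ∀ a b : Fin n, a ≠ b → ∀ G ∈ realizations d, JohnsonStructure α (cls d {a, b} G))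
    (f : Finset (Edge n) → ℝ) :
    ∑ U ∈ (univ : Finset (Fin n)).powersetCard 2, ∑ G ∈ realizations d, f G * Rop d U f G ≤
      switchEnergy d f := by
  have h1 := T2Om hJP d hB f
  have h2 := switchEnergy_nonneg d f
  linarith

end Crest.Agent.Helper71.SW
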